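import Mathlib.Analysis.CStarAlgebra.Module.Constructions
import Mathlib.Analysis.PSeries
import Mathlib.Analysis.Polynomial.MahlerMeasure
import Mathlib.Computability.Reduce
import Mathlib.Data.Finset.MulAntidiagonal
import Mathlib.LinearAlgebra.Eigenspace.Triangularizable
import Mathlib.MeasureTheory.Function.Floor
import Mathlib.MeasureTheory.Measure.Haar.Unique
import Mathlib.MeasureTheory.Measure.SeparableMeasure
import Mathlib.Tactic
import Mathlib.Topology.Separation.CompletelyRegular

/-! The part of Mathlib that the development of this folder uses. -/
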